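import Mathlib
import Vale.Agent.P052.Embed

namespace Vale.Agent.Results.P052.BorsukNine

/-- Borsuk's conjecture fails in every dimension `d ≥ 9`. -/
theorem result (d : ℕ) (hd : 9 ≤ d) :
    ∃ Y : Set (EuclideanSpace ℝ (Fin d)), Bornology.IsBounded Y ∧ 0 < Metric.diam Y ∧
      ¬ ∃ C : Fin (d + 1) → Set (EuclideanSpace ℝ (Fin d)),
        (⋃ i, C i) = Y ∧ ∀ i, Metric.diam (C i) < Metric.diam Y :=
  Vale.Agent.P052.borsuk_fails d hd

end Vale.Agent.Results.P052.BorsukNine
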